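import Mathlib
import Vale.Agent.Lib.P243.CapMain
import Vale.Agent.Lib.P243.R3.Defs
open MeasureTheory Set Vale.Agent.Lib.P243
open scoped Pointwise

namespace Vale.Agent.Lib.P243.R3

/-- The shadow formula in ENNReal form, from the volume preservation of the orthonormal chart and
the model sweep lemma. -/
theorem M1a_volume_of
    (hvol : ∀ (c : OrthonormalBasis (Fin 3) ℝ E3) (X : Set E3),
      volume (Cap.triE c '' X) = volume X)
    (hsweep : ∀ K : Set (ℝ × (ℝ × ℝ)), IsCompact K → Convex ℝ K → ∀ s : ℝ,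
      volume (K + segment ℝ (0 : ℝ × (ℝ × ℝ)) (s, 0))
        = volume K + ENNReal.ofReal |s| * volume (Prod.snd '' K))
    {K : Set E3} (hKc : IsCompact K) (hKv : Convex ℝ K)
    (a b : E3) (hab : OrthoPair a b) (w : E3) (hwa : inner ℝ w a = 0) (hwb : inner ℝ w b = 0) :
    volume (K + segment ℝ (0 : E3) w)
      = volume K + ENNReal.ofReal ‖w‖ * volume (planeCoords a b '' K) := by
  obtain ⟨c, hc0, hc1⟩ := exists_basis_three finrank_E3 a b hab.1 hab.2.1
    (by rw [real_inner_comm]; exact hab.2.2)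
  have hΦ : ∀ x, Cap.triE c x = (inner ℝ x (c 2), planeCoords a b x) := fun x => by
    rw [← hc0, ← hc1]
    exact Cap.triE_apply c x
  set s : ℝ := inner ℝ w (c 2) with hs
  have hcw : Cap.triE c w = (s, (0 : ℝ × ℝ)) := by
    rw [hΦ]
    unfold planeCoords
    rw [hwa, hwb]
    rfl
  have habs : |s| = ‖w‖ := by
    have h := c.sum_sq_inner_right w
    rw [Fin.sum_univ_three, hc0, hc1, real_inner_comm w a, hwa, real_inner_comm w b, hwb,
      real_inner_comm w (c 2)] at h
    have h2 : s ^ 2 = ‖w‖ ^ 2 := by rw [hs]; linarith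
    have h3 : |s| = |‖w‖| := (sq_eq_sq_iff_abs_eq_abs s ‖w‖).1 h2
    rw [h3, abs_norm]
  have hK'c : IsCompact (Cap.triE c '' K) := hKc.image (Cap.triE c).continuous
  have hK'conv : Convex ℝ (Cap.triE c '' K) := hKv.linear_image (Cap.triE c).toLinearMap
  have hsnd : Prod.snd '' (Cap.triE c '' K) = planeCoords a b '' K := by
    rw [image_image]
    apply image_congr
    intro x _
    rw [hΦ]
  have himg : Cap.triE c '' (K + segment ℝ (0 : E3) w)
      = Cap.triE c '' K + segment ℝ (0 : ℝ × (ℝ × ℝ)) (s, 0) := by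
    rw [Set.image_add]
    congr 1
    have h := image_segment ℝ (Cap.triE c).toLinearMap.toAffineMap (0 : E3) w
    have h0 : (Cap.triE c).toLinearMap.toAffineMap (0 : E3) = 0 := map_zero (Cap.triE c)
    have hw' : (Cap.triE c).toLinearMap.toAffineMap w = (s, (0 : ℝ × ℝ)) := hcw
    rw [h0, hw'] at h
    exact h
  rw [← hvol c (K + segment ℝ (0 : E3) w), himg, hsweep _ hK'c hK'conv s, habs, hsnd, hvol c K]

theorem M1a_of
    (hvol : ∀ (c : OrthonormalBasis (Fin 3) ℝ E3) (X : Set E3),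
      volume (Cap.triE c '' X) = volume X)
    (hsweep : ∀ K : Set (ℝ × (ℝ × ℝ)), IsCompact K → Convex ℝ K → ∀ s : ℝ,
      volume (K + segment ℝ (0 : ℝ × (ℝ × ℝ)) (s, 0))
        = volume K + ENNReal.ofReal |s| * volume (Prod.snd '' K))
    {K : Set E3} (hKc : IsCompact K) (hKv : Convex ℝ K)
    (a b : E3) (hab : OrthoPair a b) (w : E3) (hwa : inner ℝ w a = 0) (hwb : inner ℝ w b = 0) :
    Ahat K w = ‖w‖ * (volume (planeCoords a b '' K)).toReal := by
  have hcont : Continuous (planeCoords a b) := by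
    unfold planeCoords
    fun_prop
  have hPfin : volume (planeCoords a b '' K) ≠ ⊤ := (hKc.image hcont).measure_lt_top.ne
  have hKfin : volume K ≠ ⊤ := hKc.measure_lt_top.ne
  unfold Ahat
  rw [M1a_volume_of hvol hsweep hKc hKv a b hab w hwa hwb,
    ENNReal.toReal_add hKfin (ENNReal.mul_ne_top ENNReal.ofReal_ne_top hPfin),
    ENNReal.toReal_mul, ENNReal.toReal_ofReal (norm_nonneg w)]
  ring

theorem M1g_Ahat_nonneg {K : Set E3} (hKc : IsCompact K) (w : E3) : 0 ≤ Ahat K w := by
  have hseg : IsCompact (segment ℝ (0 : E3) w) := by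
    rw [segment_eq_image_lineMap]
    exact isCompact_Icc.image (AffineMap.lineMap_continuous)
  have hfin : volume (K + segment ℝ (0 : E3) w) ≠ ⊤ := (hKc.add hseg).measure_lt_top.ne
  have hsub : K ⊆ K + segment ℝ (0 : E3) w := by
    intro x hx
    exact ⟨x, hx, 0, left_mem_segment ℝ 0 w, add_zero x⟩
  unfold Ahat
  have := ENNReal.toReal_mono hfin (measure_mono hsub (μ := volume))
  linarith

theorem M1c_of
    (hA : ∀ K : Set E3, IsCompact K → Convex ℝ K → ∀ a b : E3, OrthoPair a b → ∀ w : E3,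
      inner ℝ w a = 0 → inner ℝ w b = 0 →
      Ahat K w = ‖w‖ * (volume (planeCoords a b '' K)).toReal)
    (hB : ∀ w : E3, ∃ a b : E3, OrthoPair a b ∧ inner ℝ w a = 0 ∧ inner ℝ w b = 0)
    {K K' : Set E3} (hKc : IsCompact K) (hKv : Convex ℝ K)
    (hK'c : IsCompact K') (hK'v : Convex ℝ K') (h : K ⊆ K') (w : E3) :
    Ahat K w ≤ Ahat K' w := by
  obtain ⟨a, b, hab, hwa, hwb⟩ := hB w
  rw [hA K hKc hKv a b hab w hwa hwb, hA K' hK'c hK'v a b hab w hwa hwb]
  have hcont : Continuous (planeCoords a b) := by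
    unfold planeCoords
    fun_prop
  have hPfin : volume (planeCoords a b '' K') ≠ ⊤ := (hK'c.image hcont).measure_lt_top.ne
  have hmono : volume (planeCoords a b '' K) ≤ volume (planeCoords a b '' K') :=
    measure_mono (image_mono h)
  exact mul_le_mul_of_nonneg_left (ENNReal.toReal_mono hPfin hmono) (norm_nonneg w)

end Vale.Agent.Lib.P243.R3
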