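import Mathlib
import Vale.Agent.Lib.P243.CapMain
import Vale.Agent.Lib.P243.R3.Defs
import Vale.Agent.Lib.P243.helper23.ShadowE3
import Vale.Agent.Lib.P243.R3.helper23.AhatArea
open MeasureTheory Set Vale.Agent.Lib.P243
open scoped Pointwise

namespace Vale.Agent.Lib.P243.R3

/-- The orthonormal chart `Cap.triE c` preserves volume. -/
theorem M1i_triE_volume_h23 (c : OrthonormalBasis (Fin 3) ℝ E3) (X : Set E3) :
    volume (Cap.triE c '' X) = volume X := by
  have hfun : ⇑(Cap.triE c) = ⇑(H23.coordL c) := by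
    funext x
    rw [Cap.triE_apply, H23.coordL_apply]
    unfold planeCoords
    rw [real_inner_comm x (c 2), real_inner_comm x (c 0), real_inner_comm x (c 1)]
  rw [hfun]
  exact H23.volume_coordL_image c X

/-- The model sweep lemma. -/
theorem M1s_model_sweep_h23 {K : Set (ℝ × (ℝ × ℝ))} (hK : IsCompact K) (hc : Convex ℝ K) (s : ℝ) :
    volume (K + segment ℝ (0 : ℝ × (ℝ × ℝ)) (s, 0))
      = volume K + ENNReal.ofReal |s| * volume (Prod.snd '' K) :=
  H23.model_shadow K hK hc s

/-- The shadow formula, with no hypothesis left: `Ahat K w` is `‖w‖` times the area of the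
projection of `K` in the coordinates of an orthonormal pair orthogonal to `w`. -/
theorem M1a_Ahat_area_h23 {K : Set E3} (hKc : IsCompact K) (hKv : Convex ℝ K)
    (a b : E3) (hab : OrthoPair a b) (w : E3) (hwa : inner ℝ w a = 0) (hwb : inner ℝ w b = 0) :
    Ahat K w = ‖w‖ * (volume (planeCoords a b '' K)).toReal :=
  M1a_of M1i_triE_volume_h23 (fun _ hK hc s => M1s_model_sweep_h23 hK hc s) hKc hKv a b hab w
    hwa hwb

/-- The ENNReal form of the shadow formula, with no hypothesis left. -/
theorem M1a_volume_h23 {K : Set E3} (hKc : IsCompact K) (hKv : Convex ℝ K)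
    (a b : E3) (hab : OrthoPair a b) (w : E3) (hwa : inner ℝ w a = 0) (hwb : inner ℝ w b = 0) :
    volume (K + segment ℝ (0 : E3) w)
      = volume K + ENNReal.ofReal ‖w‖ * volume (planeCoords a b '' K) :=
  M1a_volume_of M1i_triE_volume_h23 (fun _ hK hc s => M1s_model_sweep_h23 hK hc s) hKc hKv a b
    hab w hwa hwb

/-- Monotonicity of `Ahat` in the body, given only the existence of perpendicular pairs. -/
theorem M1c_mono_h23
    (hB : ∀ w : E3, ∃ a b : E3, OrthoPair a b ∧ inner ℝ w a = 0 ∧ inner ℝ w b = 0)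
    {K K' : Set E3} (hKc : IsCompact K) (hKv : Convex ℝ K)
    (hK'c : IsCompact K') (hK'v : Convex ℝ K') (h : K ⊆ K') (w : E3) :
    Ahat K w ≤ Ahat K' w :=
  M1c_of (fun _ hKc hKv a b hab w hwa hwb => M1a_Ahat_area_h23 hKc hKv a b hab w hwa hwb) hB
    hKc hKv hK'c hK'v h w

end Vale.Agent.Lib.P243.R3
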