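import Mathlib
import Vale.Agent.Lib.P243.R3.Defs
import Vale.Agent.Lib.P243.R3.Defs4
open Set

namespace Vale.Agent.Lib.P243.R3

/-- A supporting functional at a boundary point of a convex body. -/
theorem M4a_support {K : Set E3} (hK : Body K) {m : E3} (hm : m ∈ frontier K) :
    ∃ f : E3 →L[ℝ] ℝ, f ≠ 0 ∧ ∀ k ∈ K, f k ≤ f m := by
  have hmi : m ∉ interior K := hm.2
  obtain ⟨f, hf⟩ := geometric_hahn_banach_open_point hK.conv.interior isOpen_interior hmi
  refine ⟨f, ?_, ?_⟩
  · obtain ⟨x, hx⟩ := hK.int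
    intro h0
    have := hf x hx
    rw [h0] at this
    simp at this
  · have hsub : K ⊆ closure (interior K) := by
      rw [hK.conv.closure_interior_eq_closure_of_nonempty_interior hK.int]
      exact subset_closure
    have hclosed : IsClosed {x : E3 | f x ≤ f m} := isClosed_le f.continuous continuous_const
    have hint : interior K ⊆ {x : E3 | f x ≤ f m} := fun x hx => (hf x hx).le
    intro k hk
    exact closure_minimal hint hclosed (hsub hk)

theorem M4a_sup {K : Set E3} (hK : Body K) {a b : E3} (h : segment ℝ a b ⊆ frontier K) :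
    ∃ f : E3 →L[ℝ] ℝ, f ≠ 0 ∧ (∀ k ∈ K, f k ≤ f a) ∧ f b = f a := by
  have hfr : frontier K ⊆ K := hK.compact.isClosed.frontier_subset
  have ha : a ∈ K := hfr (h (left_mem_segment ℝ a b))
  have hb : b ∈ K := hfr (h (right_mem_segment ℝ a b))
  have hm : midpoint ℝ a b ∈ frontier K := h (midpoint_mem_segment a b)
  obtain ⟨f, hf0, hf⟩ := M4a_support hK hm
  have hmid : f (midpoint ℝ a b) = (f a + f b) / 2 := by
    rw [midpoint_eq_smul_add, map_smul, map_add, smul_eq_mul, invOf_eq_inv]
    ring
  have h1 := hf a ha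
  have h2 := hf b hb
  rw [hmid] at h1 h2
  have hab : f b = f a := by linarith
  refine ⟨f, hf0, fun k hk => ?_, hab⟩
  have := hf k hk
  rw [hmid, hab] at this
  linarith

end Vale.Agent.Lib.P243.R3
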